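import Mathlib.Algebra.Field.Subfield.Basic
import Mathlib.RingTheory.Algebraic.Defs
import Mathlib.Algebra.Algebra.Subalgebra.Lattice
import Mathlib.LinearAlgebra.Dimension.Basic

/-! Kurosh's problem for division rings: the notions of the problem text. -/

open Cardinal

namespace Vale.Agent.P199L

variable (D : Type) [DivisionRing D]

/-- The center `F = Z(D)`, a field. -/
abbrev Z : Type := Subring.center D

/-- `F(S)`: the division subring generated by `F ∪ S`. -/
def divGen (S : Set D) : Subfield D := Subfield.closure ((Subring.center D : Set D) ∪ S)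

/-- `F(S)` as an algebra over `F`. -/
def FS (S : Set D) : Subalgebra (Z D) D where
  toSubsemiring := (divGen D S).toSubsemiring
  algebraMap_mem' r := Subfield.subset_closure (Or.inl r.2)

/-- The degree `[F(S) : F]`. -/
noncomputable def deg (S : Set D) : Cardinal := Module.rank (Z D) (FS D S)

/-- `[F(S) : F] < ∞` for every finite subset `S`. -/
def LocallyFinite : Prop := ∀ S : Set D, S.Finite → deg D S < ℵ₀

/-- Q1: every division ring that is algebraic over its center is locally finite. -/
def Q1 : Prop := ∀ (D : Type) [DivisionRing D], (∀ a : D, IsAlgebraic (Z D) a) → LocallyFinite D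

/-- Kurosh's formulation, with a central subfield `k`. -/
def Kurosh : Prop :=
  ∀ (D : Type) [DivisionRing D] (k : Subfield (Z D)), (∀ a : D, IsAlgebraic k a) →
    (∃ S : Set D, S.Finite ∧ Algebra.adjoin k S = ⊤) → Module.rank k D < ℵ₀

end Vale.Agent.P199L
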