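import Vale.Agent.P199L24.Defs
import Vale.Agent.P199.H128.K6

/-! Kurosh's problem for division rings: transfer to the notions of the problem text. -/

set_option linter.all false

open Cardinal

namespace Vale.Agent.P199L

variable {D : Type} [DivisionRing D]

theorem inv_mem (h : ∀ a : D, IsAlgebraic (Z D) a) (A : Subalgebra (Z D) D) (a : D)
    (ha : a ∈ A) : a⁻¹ ∈ A :=
  (h a).isIntegral.inv_mem ha

theorem adjoin_le (S : Set D) : Algebra.adjoin (Z D) S ≤ FS D S :=
  Algebra.adjoin_le fun _ hx => Subfield.subset_closure (Or.inr hx)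

theorem adjoin_eq (h : ∀ a : D, IsAlgebraic (Z D) a) (S : Set D) :
    Algebra.adjoin (Z D) S = FS D S := by
  refine le_antisymm (adjoin_le S) fun x hx => ?_
  let A := Algebra.adjoin (Z D) S
  let L : Subfield D := { A.toSubring with inv_mem' := inv_mem h A }
  refine (Subfield.closure_le (t := L)).2 ?_ hx
  rintro y (hy | hy)
  · exact A.algebraMap_mem ⟨y, hy⟩
  · exact Algebra.subset_adjoin hy

theorem deg_ge {S : Set D} (h : Algebra.adjoin (Z D) S = ⊤) (hf : ¬ Module.Finite (Z D) D) :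
    divGen D S = ⊤ ∧ ℵ₀ ≤ deg D S := by
  have h1 : FS D S = ⊤ := top_le_iff.1 (h ▸ adjoin_le S)
  refine ⟨eq_top_iff.2 fun x _ => (show x ∈ FS D S from h1 ▸ Algebra.mem_top), ?_⟩
  unfold deg
  rw [h1, Subalgebra.rank_top]
  exact not_lt.1 fun h2 => hf (Module.rank_lt_aleph0_iff.1 h2)

theorem every (k₀ : Type) [Field k₀] [Countable k₀] (h2 : (2 : k₀) ≠ 0) :
    ∃ (D : Type) (_ : DivisionRing D) (_ : k₀ →+* Z D) (x y : D),
      (∀ a : D, IsAlgebraic (Z D) a) ∧ Algebra.adjoin (Z D) {x, y} = ⊤ ∧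
        ¬ Module.Finite (Z D) D := by
  obtain ⟨F, D, i1, i2, i3, i4, i5, x, y, h1, h3, h4, -⟩ := P199K.kurosh_every k₀ h2
  let f : F →+* Subring.center D :=
    (algebraMap F D).codRestrict (Subring.center D) fun r =>
      Subring.mem_center_iff.2 fun g => (Algebra.commutes r g).symm
  exact ⟨D, i4, f.comp (algebraMap k₀ F), x, y,
    P199H.not_finite_center' h1 {x, y} (Set.toFinite _) h3 h4⟩

theorem every' (k₀ : Type) [Field k₀] [Countable k₀] (h2 : (2 : k₀) ≠ 0) :
    ∃ (D : Type) (_ : DivisionRing D) (_ : k₀ →+* Z D) (x y : D),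
      (∀ a : D, IsAlgebraic (Z D) a) ∧ divGen D {x, y} = ⊤ ∧ ℵ₀ ≤ deg D {x, y} := by
  obtain ⟨D, i, f, x, y, h1, h3, h4⟩ := every k₀ h2
  exact ⟨D, i, f, x, y, h1, deg_ge h3 h4⟩

theorem not_q1 : ¬ Q1 := fun h => by
  obtain ⟨D, i, -, x, y, h1, -, h3⟩ := every' ℚ two_ne_zero
  exact not_lt.2 h3 (h D h1 {x, y} (Set.toFinite _))

theorem not_kurosh : ¬ Kurosh := fun h => by
  obtain ⟨D, i, -, x, y, h1, h3, h4⟩ := every ℚ two_ne_zero
  refine h4 ?_
  have h5 : Module.Finite (⊤ : Subfield (Z D)) D := by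
    refine Module.rank_lt_aleph0_iff.1 (h D ⊤ (fun a => ?_) ⟨{x, y}, Set.toFinite _, ?_⟩)
    · exact (h1 a).ringHom_of_comp_eq (Subfield.topEquiv.symm : Z D ≃+* (⊤ : Subfield (Z D)))
        (RingHom.id D) (EquivLike.injective _) (by ext; rfl)
    · refine eq_top_iff.2 fun a _ => ?_
      have ha : a ∈ Algebra.adjoin (Z D) {x, y} := h3 ▸ Algebra.mem_top
      induction ha using Algebra.adjoin_induction with
      | mem z hz => exact Algebra.subset_adjoin hz
      | algebraMap r => exact Subalgebra.algebraMap_mem _ (⟨r, trivial⟩ : (⊤ : Subfield (Z D)))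
      | add a b _ _ ha hb => exact add_mem (ha trivial) (hb trivial)
      | mul a b _ _ ha hb => exact mul_mem (ha trivial) (hb trivial)
  exact Module.Finite.of_restrictScalars_finite (⊤ : Subfield (Z D)) (Z D) D

end Vale.Agent.P199L
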